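import Mathlib

/-!
# P058: cyclic kites with `cos θ = 1 - 1/m1 - 1/m2` from a signed cyclic orbit (coordinates)

* `kite_of_relation` : in a real inner product space, four vectors of equal norm with
  `b + d = (1 + t) a + (1 - t) c` and `⟪a, b⟫ = ⟪a, d⟫` (`t ≠ 1`) have the mutual distances of a
  cyclic kite.
* `prof` : the profile on the cycle `0, 1, ..., m1 + m2 - 1` which is linear on the two arcs.
* `cyc_kite_points` : the four points, each a signed cyclic shift of one vector, with their six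
  distances.
* `cyc_kite_of` : the kite statement in `ℝ^(m1 + m2)`, from a signed-orbit statement taken as a
  hypothesis.
-/

namespace Vale.Agent.Lib.P058.H90

/-- Four vectors of equal norm with `b + d = (1 + t) a + (1 - t) c` and `⟪a, b⟫ = ⟪a, d⟫`,
`t ≠ 1`: all squared distances are multiples of `dist a c ^ 2`. -/
theorem kite_of_relation {E : Type*} [NormedAddCommGroup E] [InnerProductSpace ℝ E]
    (a b c d : E) (t : ℝ) (ht : t ≠ 1)
    (hb : ‖b‖ = ‖a‖) (hc : ‖c‖ = ‖a‖) (hd : ‖d‖ = ‖a‖)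
    (hrel : b + d = (1 + t) • a + (1 - t) • c)
    (hab : inner ℝ a b = inner ℝ a d) :
    dist a b ^ 2 = (1 - t) / 2 * dist a c ^ 2 ∧ dist a d ^ 2 = (1 - t) / 2 * dist a c ^ 2 ∧
    dist c b ^ 2 = (1 + t) / 2 * dist a c ^ 2 ∧ dist c d ^ 2 = (1 + t) / 2 * dist a c ^ 2 ∧
    dist b d ^ 2 = (1 - t ^ 2) * dist a c ^ 2 := by
  have ea : inner ℝ a (b + d) = inner ℝ a ((1 + t) • a + (1 - t) • c) := by rw [hrel]
  have ec : inner ℝ c (b + d) = inner ℝ c ((1 + t) • a + (1 - t) • c) := by rw [hrel]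
  have eb : inner ℝ b (b + d) = inner ℝ b ((1 + t) • a + (1 - t) • c) := by rw [hrel]
  have ed : inner ℝ d (b + d) = inner ℝ d ((1 + t) • a + (1 - t) • c) := by rw [hrel]
  simp only [inner_add_right, inner_smul_right] at ea ec eb ed
  rw [real_inner_self_eq_norm_sq] at ea ec eb ed
  rw [real_inner_comm a c, hc] at ec
  rw [real_inner_comm a b, real_inner_comm c b, hb] at eb
  rw [real_inner_comm b d, real_inner_comm a d, real_inner_comm c d, hd] at ed
  have hcb : inner ℝ c b = inner ℝ c d := by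
    have h0 : (1 - t) * (inner ℝ c b - inner ℝ c d) = 0 := by
      linear_combination ed - eb - (1 + t) * hab
    rcases mul_eq_zero.mp h0 with h | h
    · exact absurd (by linarith) ht
    · linarith
  simp only [dist_eq_norm, norm_sub_sq_real, hb, hc, hd]
  refine ⟨?_, ?_, ?_, ?_, ?_⟩
  · linear_combination (-1 : ℝ) * ea - hab
  · linear_combination (-1 : ℝ) * ea + hab
  · linear_combination (-1 : ℝ) * ec - hcb
  · linear_combination (-1 : ℝ) * ec + hcb
  · linear_combination (-2 : ℝ) * eb - (1 + t) * ea - (1 + t) * hab - (1 - t) * ec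
      - (1 - t) * hcb

/-- From `x ^ 2 = σ ^ 2 * u` with `x, σ ≥ 0` to `x = σ √u`. -/
theorem eq_mul_sqrt_of_sq {x σ u : ℝ} (hx : 0 ≤ x) (hσ : 0 ≤ σ) (h : x ^ 2 = σ ^ 2 * u) :
    x = σ * Real.sqrt u := by
  rw [← Real.sqrt_sq hx, h, Real.sqrt_mul (sq_nonneg σ), Real.sqrt_sq hσ]

/-- The profile on the cycle of length `m1 + m2`: linear with slope `-2 lam m2` on
`0, ..., m1` and with slope `2 lam m1` on `m1, ..., m1 + m2`, with the value `lam m1 m2` at `0`
and `- lam m1 m2` at `m1`. -/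
noncomputable def prof (m1 m2 : ℕ) (lam : ℝ) (k : ℕ) : ℝ :=
  if k < m1 then lam * m2 * (m1 - 2 * k) else lam * m1 * (2 * (k - m1) - m2)

theorem prof_lo (m1 m2 : ℕ) (lam : ℝ) (k : ℕ) (hk : k ≤ m1) :
    prof m1 m2 lam k = lam * m2 * (m1 - 2 * k) := by
  unfold prof
  split_ifs with h
  · rfl
  · have hkm : k = m1 := by omega
    subst hkm
    ring

theorem prof_hi (m1 m2 : ℕ) (lam : ℝ) (k : ℕ) (hk : m1 ≤ k) :
    prof m1 m2 lam k = lam * m1 * (2 * (k - m1) - m2) := by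
  unfold prof
  rw [if_neg (by omega)]

/-- The two-sided neighbour relation of the profile on the cycle. -/
theorem prof_rel (N m1 m2 : ℕ) (lam t : ℝ) (h1 : 1 ≤ m1) (h2 : 1 ≤ m2) (h3 : 3 ≤ m1 + m2)
    (hN : m1 + m2 = N + 1) (ht : t * ((m1 : ℝ) * m2) = m1 * m2 - m1 - m2) (k : ℕ)
    (hk : k ≤ N) :
    prof m1 m2 lam (if k = N then 0 else k + 1) + prof m1 m2 lam (if k = 0 then N else k - 1)
      = (1 + t) * prof m1 m2 lam k
        + (1 - t) * (if k = 0 ∨ k = m1 then - prof m1 m2 lam k else prof m1 m2 lam k) := by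
  have hNr : (m1 : ℝ) + m2 = N + 1 := by exact_mod_cast hN
  have hNr' : (N : ℝ) = m1 + m2 - 1 := by linarith
  rcases Nat.eq_zero_or_pos k with rfl | hk0
  · rw [if_neg (by omega), if_pos rfl, if_pos (Or.inl rfl)]
    rw [prof_lo m1 m2 lam (0 + 1) (by omega), prof_hi m1 m2 lam N (by omega),
      prof_lo m1 m2 lam 0 (by omega)]
    push_cast
    rw [hNr']
    linear_combination (-2 * lam) * ht
  · rw [if_neg (by omega : ¬ k = 0)]
    rcases lt_trichotomy k m1 with hlt | rfl | hgt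
    · rw [if_neg (by omega : ¬ k = N), if_neg (by omega : ¬ (k = 0 ∨ k = m1))]
      rw [prof_lo m1 m2 lam (k + 1) (by omega), prof_lo m1 m2 lam (k - 1) (by omega),
        prof_lo m1 m2 lam k (by omega), Nat.cast_sub hk0]
      push_cast
      ring
    · rw [if_pos (Or.inr rfl)]
      rw [prof_lo k m2 lam (k - 1) (by omega), prof_hi k m2 lam k le_rfl, Nat.cast_sub h1]
      by_cases hm : k = N
      · rw [if_pos hm, prof_lo k m2 lam 0 (by omega)]
        have hm2 : (m2 : ℝ) = 1 := by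
          have : m2 = 1 := by omega
          exact_mod_cast this
        push_cast
        linear_combination (2 * lam) * ht + (2 * lam * (k : ℝ)) * hm2
      · rw [if_neg hm, prof_hi k m2 lam (k + 1) (by omega)]
        push_cast
        linear_combination (2 * lam) * ht
    · rw [if_neg (by omega : ¬ (k = 0 ∨ k = m1))]
      rw [prof_hi m1 m2 lam (k - 1) (by omega), prof_hi m1 m2 lam k (by omega),
        Nat.cast_sub hk0]
      by_cases hkN : k = N
      · rw [if_pos hkN, prof_lo m1 m2 lam 0 (by omega)]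
        subst hkN
        push_cast
        rw [hNr']
        ring
      · rw [if_neg hkN, prof_hi m1 m2 lam (k + 1) (by omega)]
        push_cast
        ring

/-- The vector of profile values. -/
noncomputable def vecV (N m1 m2 : ℕ) (lam : ℝ) : EuclideanSpace ℝ (Fin (N + 1)) :=
  WithLp.toLp 2 (fun i : Fin (N + 1) => prof m1 m2 lam i.val)

/-- The profile shifted by one step. -/
noncomputable def vecB (N m1 m2 : ℕ) (lam : ℝ) : EuclideanSpace ℝ (Fin (N + 1)) :=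
  WithLp.toLp 2 (fun i : Fin (N + 1) => prof m1 m2 lam (i + 1).val)

/-- The profile shifted by one step in the other direction. -/
noncomputable def vecD (N m1 m2 : ℕ) (lam : ℝ) : EuclideanSpace ℝ (Fin (N + 1)) :=
  WithLp.toLp 2 (fun i : Fin (N + 1) => prof m1 m2 lam (i - 1).val)

/-- The profile with the signs of the coordinates `0` and `m1` changed. -/
noncomputable def vecC (N m1 m2 : ℕ) (lam : ℝ) : EuclideanSpace ℝ (Fin (N + 1)) :=
  WithLp.toLp 2 (fun i : Fin (N + 1) =>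
    if i.val = 0 ∨ i.val = m1 then - prof m1 m2 lam i.val else prof m1 m2 lam i.val)

theorem vecV_apply (N m1 m2 : ℕ) (lam : ℝ) (i : Fin (N + 1)) :
    vecV N m1 m2 lam i = prof m1 m2 lam i.val := rfl

theorem vecB_apply (N m1 m2 : ℕ) (lam : ℝ) (i : Fin (N + 1)) :
    vecB N m1 m2 lam i = prof m1 m2 lam (i + 1).val := rfl

theorem vecD_apply (N m1 m2 : ℕ) (lam : ℝ) (i : Fin (N + 1)) :
    vecD N m1 m2 lam i = prof m1 m2 lam (i - 1).val := rfl

theorem vecC_apply (N m1 m2 : ℕ) (lam : ℝ) (i : Fin (N + 1)) :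
    vecC N m1 m2 lam i
      = if i.val = 0 ∨ i.val = m1 then - prof m1 m2 lam i.val else prof m1 m2 lam i.val := rfl

theorem vec_rel (N m1 m2 : ℕ) (lam t : ℝ) (h1 : 1 ≤ m1) (h2 : 1 ≤ m2) (h3 : 3 ≤ m1 + m2)
    (hN : m1 + m2 = N + 1) (ht : t * ((m1 : ℝ) * m2) = m1 * m2 - m1 - m2) :
    vecB N m1 m2 lam + vecD N m1 m2 lam
      = (1 + t) • vecV N m1 m2 lam + (1 - t) • vecC N m1 m2 lam := by
  ext i
  have hp : ((i + 1 : Fin (N + 1)) : ℕ) = if i.val = N then 0 else i.val + 1 := by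
    rw [Fin.val_add_one]
    by_cases h : i = Fin.last N
    · rw [if_pos h, if_pos (by rw [h]; rfl)]
    · have h' : ¬ (i.val = N) := fun h' => h (Fin.ext h')
      rw [if_neg h, if_neg h']
  have hm : ((i - 1 : Fin (N + 1)) : ℕ) = if i.val = 0 then N else i.val - 1 := by
    rw [Fin.coe_sub_one]
    by_cases h : i = 0
    · rw [if_pos h, if_pos (by rw [h]; rfl)]
    · have h' : ¬ (i.val = 0) := fun h' => h (Fin.ext h')
      rw [if_neg h, if_neg h']
  have hi : i.val ≤ N := Nat.lt_succ_iff.mp i.isLt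
  simp only [PiLp.add_apply, PiLp.smul_apply, smul_eq_mul, vecB_apply, vecD_apply, vecV_apply,
    vecC_apply]
  rw [hp, hm]
  exact prof_rel N m1 m2 lam t h1 h2 h3 hN ht i.val hi

theorem norm_vecB (N m1 m2 : ℕ) (lam : ℝ) : ‖vecB N m1 m2 lam‖ = ‖vecV N m1 m2 lam‖ := by
  rw [EuclideanSpace.norm_eq, EuclideanSpace.norm_eq]
  congr 1
  exact Equiv.sum_comp (Equiv.addRight (1 : Fin (N + 1)))
    (fun j : Fin (N + 1) => ‖prof m1 m2 lam j.val‖ ^ 2)

theorem norm_vecD (N m1 m2 : ℕ) (lam : ℝ) : ‖vecD N m1 m2 lam‖ = ‖vecV N m1 m2 lam‖ := by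
  rw [EuclideanSpace.norm_eq, EuclideanSpace.norm_eq]
  congr 1
  exact Equiv.sum_comp (Equiv.subRight (1 : Fin (N + 1)))
    (fun j : Fin (N + 1) => ‖prof m1 m2 lam j.val‖ ^ 2)

theorem norm_vecC (N m1 m2 : ℕ) (lam : ℝ) : ‖vecC N m1 m2 lam‖ = ‖vecV N m1 m2 lam‖ := by
  rw [EuclideanSpace.norm_eq, EuclideanSpace.norm_eq]
  congr 1
  refine Finset.sum_congr rfl (fun i _ => ?_)
  rw [vecC_apply, vecV_apply]
  split_ifs
  · rw [norm_neg]
  · rfl

theorem inner_vecB_eq (N m1 m2 : ℕ) (lam : ℝ) :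
    inner ℝ (vecV N m1 m2 lam) (vecB N m1 m2 lam)
      = inner ℝ (vecV N m1 m2 lam) (vecD N m1 m2 lam) := by
  rw [PiLp.inner_apply, PiLp.inner_apply]
  simp only [RCLike.inner_apply, conj_trivial, vecV_apply, vecB_apply, vecD_apply]
  rw [← Equiv.sum_comp (Equiv.addRight (1 : Fin (N + 1)))
    (fun i : Fin (N + 1) => prof m1 m2 lam (i - 1).val * prof m1 m2 lam i.val)]
  refine Finset.sum_congr rfl (fun i _ => ?_)
  simp only [Equiv.coe_addRight, add_sub_cancel_right]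
  ring

theorem dist_vecV_vecC_sq (N m1 m2 : ℕ) (lam : ℝ) (h1 : 1 ≤ m1) (h2 : 1 ≤ m2)
    (hN : m1 + m2 = N + 1) :
    dist (vecV N m1 m2 lam) (vecC N m1 m2 lam) ^ 2 = 8 * (lam * m1 * m2) ^ 2 := by
  rw [EuclideanSpace.dist_eq, Real.sq_sqrt (Finset.sum_nonneg (fun i _ => sq_nonneg _))]
  have hm1 : m1 < N + 1 := by omega
  have hne : (0 : Fin (N + 1)) ≠ ⟨m1, hm1⟩ := by
    intro h
    have := congrArg Fin.val h
    simp at this
    omega
  rw [Fintype.sum_eq_add (0 : Fin (N + 1)) ⟨m1, hm1⟩ hne]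
  · have e0 : prof m1 m2 lam ((0 : Fin (N + 1)) : ℕ) = lam * m1 * m2 := by
      rw [Fin.val_zero, prof_lo m1 m2 lam 0 (by omega)]
      push_cast
      ring
    have e1 : prof m1 m2 lam ((⟨m1, hm1⟩ : Fin (N + 1)) : ℕ) = - (lam * m1 * m2) := by
      show prof m1 m2 lam m1 = - (lam * m1 * m2)
      rw [prof_hi m1 m2 lam m1 le_rfl]
      ring
    have c0 : ((0 : Fin (N + 1)) : ℕ) = 0 ∨ ((0 : Fin (N + 1)) : ℕ) = m1 := Or.inl rfl
    have c1 : ((⟨m1, hm1⟩ : Fin (N + 1)) : ℕ) = 0 ∨ ((⟨m1, hm1⟩ : Fin (N + 1)) : ℕ) = m1 :=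
      Or.inr rfl
    have t0 : dist ((vecV N m1 m2 lam) 0) ((vecC N m1 m2 lam) 0) ^ 2
        = 4 * (lam * m1 * m2) ^ 2 := by
      rw [vecV_apply, vecC_apply, if_pos c0, e0, Real.dist_eq, sq_abs]
      ring
    have t1 : dist ((vecV N m1 m2 lam) ⟨m1, hm1⟩) ((vecC N m1 m2 lam) ⟨m1, hm1⟩) ^ 2
        = 4 * (lam * m1 * m2) ^ 2 := by
      rw [vecV_apply, vecC_apply, if_pos c1, e1, Real.dist_eq, sq_abs]
      ring
    rw [t0, t1]
    ring
  · intro i hi
    simp only [vecV_apply, vecC_apply, Real.dist_eq, sq_abs]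
    have h0 : ¬ (i.val = 0 ∨ i.val = m1) := by
      rintro (h | h)
      · exact hi.1 (Fin.ext h)
      · exact hi.2 (Fin.ext h)
    rw [if_neg h0]
    simp

/-- The four points of the cyclic kite with `cos θ = t = 1 - 1/m1 - 1/m2`: each of them is a
signed cyclic shift of one vector `v` of `ℝ^(N+1)`, `N + 1 = m1 + m2`, and their six mutual
distances are those of the kite inscribed in a circle of diameter `σ √2`. -/
theorem cyc_kite_points (N m1 m2 : ℕ) (h1 : 1 ≤ m1) (h2 : 1 ≤ m2) (h3 : 3 ≤ m1 + m2)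
    (hN : m1 + m2 = N + 1) (σ : ℝ) (hσ : 0 < σ) (t : ℝ) (ht : t = 1 - 1 / m1 - 1 / m2) :
    ∃ (π : Equiv.Perm (Fin (N + 1))) (v a b c d : EuclideanSpace ℝ (Fin (N + 1))),
      (∃ k : ℤ, ∀ i, a i = v ((π ^ k) i) ∨ a i = - v ((π ^ k) i)) ∧
      (∃ k : ℤ, ∀ i, b i = v ((π ^ k) i) ∨ b i = - v ((π ^ k) i)) ∧
      (∃ k : ℤ, ∀ i, c i = v ((π ^ k) i) ∨ c i = - v ((π ^ k) i)) ∧
      (∃ k : ℤ, ∀ i, d i = v ((π ^ k) i) ∨ d i = - v ((π ^ k) i)) ∧
      dist a b = σ * Real.sqrt (1 - t) ∧ dist a d = σ * Real.sqrt (1 - t) ∧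
      dist c b = σ * Real.sqrt (1 + t) ∧ dist c d = σ * Real.sqrt (1 + t) ∧
      dist a c = σ * Real.sqrt 2 ∧ dist b d = σ * Real.sqrt (2 * (1 - t ^ 2)) := by
  have hm1 : (0 : ℝ) < m1 := by exact_mod_cast h1
  have hm2 : (0 : ℝ) < m2 := by exact_mod_cast h2
  have htm : t * ((m1 : ℝ) * m2) = m1 * m2 - m1 - m2 := by
    rw [ht]
    field_simp
    ring
  have ht1 : t ≠ 1 := by
    intro h
    rw [h] at htm
    linarith
  obtain ⟨lam, hlam⟩ : ∃ lam : ℝ, lam = σ / (2 * m1 * m2) := ⟨_, rfl⟩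
  have hlam2 : 8 * (lam * m1 * m2) ^ 2 = 2 * σ ^ 2 := by
    rw [hlam]
    field_simp
    ring
  have hac := dist_vecV_vecC_sq N m1 m2 lam h1 h2 hN
  rw [hlam2] at hac
  obtain ⟨e1, e2, e3, e4, e5⟩ := kite_of_relation (vecV N m1 m2 lam) (vecB N m1 m2 lam)
    (vecC N m1 m2 lam) (vecD N m1 m2 lam) t ht1 (norm_vecB N m1 m2 lam) (norm_vecC N m1 m2 lam)
    (norm_vecD N m1 m2 lam) (vec_rel N m1 m2 lam t h1 h2 h3 hN htm) (inner_vecB_eq N m1 m2 lam)
  rw [hac] at e1 e2 e3 e4 e5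
  refine ⟨Equiv.addRight 1, vecV N m1 m2 lam, vecV N m1 m2 lam, vecB N m1 m2 lam,
    vecC N m1 m2 lam, vecD N m1 m2 lam, ⟨0, fun i => Or.inl ?_⟩, ⟨1, fun i => Or.inl ?_⟩,
    ⟨0, fun i => ?_⟩, ⟨-1, fun i => Or.inl ?_⟩, ?_, ?_, ?_, ?_, ?_, ?_⟩
  · simp
  · rw [vecB_apply, vecV_apply]
    simp
  · rw [vecC_apply]
    simp only [zpow_zero, Equiv.Perm.coe_one, id_eq, vecV_apply]
    split_ifs
    · right
      rfl
    · left
      rfl
  · rw [vecD_apply, vecV_apply]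
    simp [sub_eq_add_neg]
  · exact eq_mul_sqrt_of_sq dist_nonneg hσ.le (by rw [e1]; ring)
  · exact eq_mul_sqrt_of_sq dist_nonneg hσ.le (by rw [e2]; ring)
  · exact eq_mul_sqrt_of_sq dist_nonneg hσ.le (by rw [e3]; ring)
  · exact eq_mul_sqrt_of_sq dist_nonneg hσ.le (by rw [e4]; ring)
  · exact eq_mul_sqrt_of_sq dist_nonneg hσ.le (by rw [hac]; ring)
  · exact eq_mul_sqrt_of_sq dist_nonneg hσ.le (by rw [e5]; ring)

/-- The kite statement in `ℝ^(m1 + m2)`, from a signed-orbit statement (`hcore`): for every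
permutation `π` of the coordinates and every vector `v` there are a finite set `X` and a soluble
group `G` of isometries acting transitively on `X` such that `X` contains every vector obtained
from `v` by a power of `π` and sign changes of coordinates. -/
theorem cyc_kite_of
    (hcore : ∀ (N : ℕ) (π : Equiv.Perm (Fin (N + 1))) (v : EuclideanSpace ℝ (Fin (N + 1))),
      ∃ (X : Set (EuclideanSpace ℝ (Fin (N + 1))))
        (G : Subgroup (EuclideanSpace ℝ (Fin (N + 1)) ≃ᵢ EuclideanSpace ℝ (Fin (N + 1)))),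
        X.Finite ∧ Group.IsSolvable G ∧ (∀ g ∈ G, ∀ p ∈ X, g p ∈ X) ∧
        (∀ p ∈ X, ∀ q ∈ X, ∃ g ∈ G, g p = q) ∧
        ∀ x : EuclideanSpace ℝ (Fin (N + 1)),
          (∃ k : ℤ, ∀ i, x i = v ((π ^ k) i) ∨ x i = - v ((π ^ k) i)) → x ∈ X)
    (m1 m2 : ℕ) (h1 : 1 ≤ m1) (h2 : 1 ≤ m2) (h3 : 3 ≤ m1 + m2) (σ : ℝ) (hσ : 0 < σ) :
    ∃ (X : Set (EuclideanSpace ℝ (Fin (m1 + m2))))
      (G : Subgroup (EuclideanSpace ℝ (Fin (m1 + m2)) ≃ᵢ EuclideanSpace ℝ (Fin (m1 + m2)))),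
      X.Finite ∧ Group.IsSolvable G ∧ (∀ g ∈ G, ∀ p ∈ X, g p ∈ X) ∧
      (∀ p ∈ X, ∀ q ∈ X, ∃ g ∈ G, g p = q) ∧
      ∃ a ∈ X, ∃ b ∈ X, ∃ c ∈ X, ∃ d ∈ X,
        dist a b = σ * Real.sqrt (1 / m1 + 1 / m2) ∧
        dist a d = σ * Real.sqrt (1 / m1 + 1 / m2) ∧
        dist c b = σ * Real.sqrt (2 - 1 / m1 - 1 / m2) ∧
        dist c d = σ * Real.sqrt (2 - 1 / m1 - 1 / m2) ∧
        dist a c = σ * Real.sqrt 2 ∧
        dist b d = σ * Real.sqrt (2 * (1 / m1 + 1 / m2) * (2 - 1 / m1 - 1 / m2)) := by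
  have key : ∀ n : ℕ, m1 + m2 = n →
      ∃ (X : Set (EuclideanSpace ℝ (Fin n)))
        (G : Subgroup (EuclideanSpace ℝ (Fin n) ≃ᵢ EuclideanSpace ℝ (Fin n))),
        X.Finite ∧ Group.IsSolvable G ∧ (∀ g ∈ G, ∀ p ∈ X, g p ∈ X) ∧
        (∀ p ∈ X, ∀ q ∈ X, ∃ g ∈ G, g p = q) ∧
        ∃ a ∈ X, ∃ b ∈ X, ∃ c ∈ X, ∃ d ∈ X,
          dist a b = σ * Real.sqrt (1 / m1 + 1 / m2) ∧
          dist a d = σ * Real.sqrt (1 / m1 + 1 / m2) ∧
          dist c b = σ * Real.sqrt (2 - 1 / m1 - 1 / m2) ∧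
          dist c d = σ * Real.sqrt (2 - 1 / m1 - 1 / m2) ∧
          dist a c = σ * Real.sqrt 2 ∧
          dist b d = σ * Real.sqrt (2 * (1 / m1 + 1 / m2) * (2 - 1 / m1 - 1 / m2)) := by
    intro n hn
    cases n with
    | zero => omega
    | succ N =>
      obtain ⟨π, v, a, b, c, d, ma, mb, mc, md, d1, d2, d3, d4, d5, d6⟩ :=
        cyc_kite_points N m1 m2 h1 h2 h3 hn σ hσ (1 - 1 / m1 - 1 / m2) rfl
      obtain ⟨X, G, hfin, hsol, hinv, htr, hmem⟩ := hcore N π v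
      refine ⟨X, G, hfin, hsol, hinv, htr, a, hmem a ma, b, hmem b mb, c, hmem c mc,
        d, hmem d md, ?_, ?_, ?_, ?_, d5, ?_⟩
      · rw [d1]
        congr 2
        ring
      · rw [d2]
        congr 2
        ring
      · rw [d3]
        congr 2
        ring
      · rw [d4]
        congr 2
        ring
      · rw [d6]
        congr 2
        ring
  exact key (m1 + m2) rfl

end Vale.Agent.Lib.P058.H90
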