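import Mathlib
import Vale.Agent.Lib.P058.helper90.CycKite
import Vale.Agent.Lib.P058.helper27.SignedOrbit

/-!
# P058: a criterion for cyclic kites inside a set with a soluble transitive group

* `sol_orbit_kite` : four vectors `w`, `b`, `c`, `d` of `EuclideanSpace ℝ ι` such that `b`, `d`,
  `c` are `w` rearranged by a permutation `π`, by its inverse and by the identity, up to signs,
  with `b + d = (1 + t) w + (1 - t) c` and `⟪w, b⟫ = ⟪w, d⟫`, give, after scaling, the kite with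
  parameter `t` inside a finite set with a soluble transitive group of isometries.
* `sol_crit` : the same from one permutation `φ` of an index set and signs, by doubling.
* `sol_family_sum`, `sol_family_diff` : the parameters `2k/(3k+2)` and `k/(3k+2)`.
-/

namespace Vale.Agent.Lib.P058.H90

/-- A rearrangement up to signs has the same norm. -/
theorem norm_eq_signed {ι : Type*} [Fintype ι] (x v : EuclideanSpace ℝ ι)
    (q : Equiv.Perm ι) (h : ∀ i, x i = v (q i) ∨ x i = - v (q i)) : ‖x‖ = ‖v‖ := by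
  rw [EuclideanSpace.norm_eq, EuclideanSpace.norm_eq]
  congr 1
  rw [← Equiv.sum_comp q (fun i => ‖v i‖ ^ 2)]
  refine Finset.sum_congr rfl (fun i _ => ?_)
  rcases h i with h1 | h1 <;> rw [h1]
  rw [norm_neg]

theorem sol_orbit_kite {ι : Type} [Fintype ι] (π : Equiv.Perm ι)
    (w b c d : EuclideanSpace ℝ ι) (t : ℝ) (ht : t ≠ 1)
    (hb : ∀ i, b i = w (π i) ∨ b i = - w (π i))
    (hd : ∀ i, d i = w (π.symm i) ∨ d i = - w (π.symm i))
    (hc : ∀ i, c i = w i ∨ c i = - w i)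
    (hrel : b + d = (1 + t) • w + (1 - t) • c)
    (hab : inner ℝ w b = inner ℝ w d)
    (hne : w ≠ c) (σ : ℝ) (hσ : 0 < σ) :
    ∃ (n : ℕ) (X : Set (EuclideanSpace ℝ (Fin n)))
      (G : Subgroup (EuclideanSpace ℝ (Fin n) ≃ᵢ EuclideanSpace ℝ (Fin n))),
      X.Finite ∧ Group.IsSolvable G ∧ (∀ g ∈ G, ∀ p ∈ X, g p ∈ X) ∧
      (∀ p ∈ X, ∀ q ∈ X, ∃ g ∈ G, g p = q) ∧
      ∃ a' ∈ X, ∃ b' ∈ X, ∃ c' ∈ X, ∃ d' ∈ X,
        dist a' b' ^ 2 = 2 * σ ^ 2 * (1 - t) ∧ dist a' d' ^ 2 = 2 * σ ^ 2 * (1 - t) ∧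
        dist c' b' ^ 2 = 2 * σ ^ 2 * (1 + t) ∧ dist c' d' ^ 2 = 2 * σ ^ 2 * (1 + t) ∧
        dist a' c' ^ 2 = 4 * σ ^ 2 ∧ dist b' d' ^ 2 = 4 * σ ^ 2 * (1 - t ^ 2) := by
  classical
  obtain ⟨e1, e2, e3, e4, e5⟩ := kite_of_relation w b c d t ht
    (norm_eq_signed b w π hb) (norm_eq_signed c w 1 (fun i => by simpa using hc i))
    (norm_eq_signed d w π.symm hd) hrel hab
  have hδ : 0 < dist w c := dist_pos.mpr hne
  obtain ⟨lam, hlam⟩ : ∃ lam : ℝ, lam = 2 * σ / dist w c := ⟨_, rfl⟩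
  have hl2 : lam ^ 2 * dist w c ^ 2 = 4 * σ ^ 2 := by
    rw [hlam]
    field_simp
    ring
  obtain ⟨e⟩ : Nonempty (ι ≃ Fin (Fintype.card ι)) := ⟨Fintype.equivFin ι⟩
  obtain ⟨emb, hemb⟩ : ∃ emb : EuclideanSpace ℝ ι → EuclideanSpace ℝ (Fin (Fintype.card ι)),
      ∀ x k, emb x k = lam * x (e.symm k) :=
    ⟨fun x => WithLp.toLp 2 (fun k => lam * x (e.symm k)), fun _ _ => rfl⟩
  have hdist : ∀ x y, dist (emb x) (emb y) ^ 2 = lam ^ 2 * dist x y ^ 2 := by
    intro x y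
    rw [EuclideanSpace.dist_eq, EuclideanSpace.dist_eq,
      Real.sq_sqrt (Finset.sum_nonneg (fun i _ => sq_nonneg _)),
      Real.sq_sqrt (Finset.sum_nonneg (fun i _ => sq_nonneg _)),
      ← Equiv.sum_comp e.symm (fun i => dist (x i) (y i) ^ 2), Finset.mul_sum]
    refine Finset.sum_congr rfl (fun k _ => ?_)
    rw [hemb, hemb, Real.dist_eq, Real.dist_eq, ← mul_sub, abs_mul, mul_pow, sq_abs, sq_abs]
  obtain ⟨X, G, hfin, hsol, hinv, htr, hmem⟩ :=
    Vale.Agent.Lib.P058.H27.soluble_signed_orbit (e.symm.trans (π.trans e)) (emb w)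
  have ma : emb w ∈ X := hmem _ ⟨0, fun k => Or.inl (by simp)⟩
  have mb : emb b ∈ X := by
    refine hmem _ ⟨1, fun k => ?_⟩
    rw [zpow_one, hemb, hemb]
    simp only [Equiv.trans_apply, Equiv.symm_apply_apply]
    rcases hb (e.symm k) with h | h
    · left
      rw [h]
    · right
      rw [h]
      ring
  have mc : emb c ∈ X := by
    refine hmem _ ⟨0, fun k => ?_⟩
    rw [zpow_zero, hemb, hemb]
    simp only [Equiv.Perm.one_apply]
    rcases hc (e.symm k) with h | h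
    · left
      rw [h]
    · right
      rw [h]
      ring
  have md : emb d ∈ X := by
    refine hmem _ ⟨-1, fun k => ?_⟩
    rw [zpow_neg_one, hemb, hemb]
    simp only [Equiv.Perm.inv_def, Equiv.symm_trans_apply, Equiv.symm_symm,
      Equiv.symm_apply_apply]
    rcases hd (e.symm k) with h | h
    · left
      rw [h]
    · right
      rw [h]
      ring
  refine ⟨Fintype.card ι, X, G, hfin, hsol, hinv, htr, emb w, ma, emb b, mb, emb c, mc,
    emb d, md, ?_, ?_, ?_, ?_, ?_, ?_⟩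
  · rw [hdist, e1]
    linear_combination (1 - t) / 2 * hl2
  · rw [hdist, e2]
    linear_combination (1 - t) / 2 * hl2
  · rw [hdist, e3]
    linear_combination (1 + t) / 2 * hl2
  · rw [hdist, e4]
    linear_combination (1 + t) / 2 * hl2
  · rw [hdist]
    exact hl2
  · rw [hdist, e5]
    linear_combination (1 - t ^ 2) * hl2

/-- **Criterion.**  A permutation `φ` of a finite index set, numbers `v i` and signs `ε i`,
`ε' i`, `η i` with `ε i v (φ i) + ε' i v (φ⁻¹ i) = (1 + t) v i + (1 - t) η i v i` for all `i`,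
and `η i = -1`, `v i ≠ 0` for some `i`, give the kite with parameter `t` inside a finite set
with a soluble transitive group of isometries. -/
theorem sol_crit {ι : Type} [Fintype ι] (φ : Equiv.Perm ι) (v ε ε' η : ι → ℝ) (t : ℝ)
    (ht : t ≠ 1)
    (hε : ∀ i, ε i = 1 ∨ ε i = -1) (hε' : ∀ i, ε' i = 1 ∨ ε' i = -1)
    (hη : ∀ i, η i = 1 ∨ η i = -1)
    (hrel : ∀ i, ε i * v (φ i) + ε' i * v (φ.symm i) = (1 + t) * v i + (1 - t) * (η i * v i))
    (hnd : ∃ i, η i = -1 ∧ v i ≠ 0) (σ : ℝ) (hσ : 0 < σ) :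
    ∃ (n : ℕ) (X : Set (EuclideanSpace ℝ (Fin n)))
      (G : Subgroup (EuclideanSpace ℝ (Fin n) ≃ᵢ EuclideanSpace ℝ (Fin n))),
      X.Finite ∧ Group.IsSolvable G ∧ (∀ g ∈ G, ∀ p ∈ X, g p ∈ X) ∧
      (∀ p ∈ X, ∀ q ∈ X, ∃ g ∈ G, g p = q) ∧
      ∃ a' ∈ X, ∃ b' ∈ X, ∃ c' ∈ X, ∃ d' ∈ X,
        dist a' b' ^ 2 = 2 * σ ^ 2 * (1 - t) ∧ dist a' d' ^ 2 = 2 * σ ^ 2 * (1 - t) ∧
        dist c' b' ^ 2 = 2 * σ ^ 2 * (1 + t) ∧ dist c' d' ^ 2 = 2 * σ ^ 2 * (1 + t) ∧
        dist a' c' ^ 2 = 4 * σ ^ 2 ∧ dist b' d' ^ 2 = 4 * σ ^ 2 * (1 - t ^ 2) := by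
  obtain ⟨i0, hi0, hv0⟩ := hnd
  refine sol_orbit_kite (Equiv.sumCongr φ φ.symm)
    (WithLp.toLp 2 (Sum.elim v v))
    (WithLp.toLp 2 (Sum.elim (fun i => ε i * v (φ i)) (fun i => ε' i * v (φ.symm i))))
    (WithLp.toLp 2 (Sum.elim (fun i => η i * v i) (fun i => η i * v i)))
    (WithLp.toLp 2 (Sum.elim (fun i => ε' i * v (φ.symm i)) (fun i => ε i * v (φ i))))
    t ht ?_ ?_ ?_ ?_ ?_ ?_ σ hσ
  · rintro (i | i)
    · show ε i * v (φ i) = v (φ i) ∨ ε i * v (φ i) = - v (φ i)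
      rcases hε i with h | h <;> rw [h] <;> simp
    · show ε' i * v (φ.symm i) = v (φ.symm i) ∨ ε' i * v (φ.symm i) = - v (φ.symm i)
      rcases hε' i with h | h <;> rw [h] <;> simp
  · rintro (i | i)
    · show ε' i * v (φ.symm i) = v (φ.symm i) ∨ ε' i * v (φ.symm i) = - v (φ.symm i)
      rcases hε' i with h | h <;> rw [h] <;> simp
    · show ε i * v (φ i) = v (φ i) ∨ ε i * v (φ i) = - v (φ i)
      rcases hε i with h | h <;> rw [h] <;> simp
  · rintro (i | i)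
    · show η i * v i = v i ∨ η i * v i = - v i
      rcases hη i with h | h <;> rw [h] <;> simp
    · show η i * v i = v i ∨ η i * v i = - v i
      rcases hη i with h | h <;> rw [h] <;> simp
  · ext j
    rcases j with i | i
    · show ε i * v (φ i) + ε' i * v (φ.symm i) = (1 + t) * v i + (1 - t) * (η i * v i)
      exact hrel i
    · show ε' i * v (φ.symm i) + ε i * v (φ i) = (1 + t) * v i + (1 - t) * (η i * v i)
      rw [add_comm]
      exact hrel i
  · rw [PiLp.inner_apply, PiLp.inner_apply, Fintype.sum_sum_type, Fintype.sum_sum_type]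
    exact add_comm _ _
  · intro h
    have h1 : (WithLp.toLp 2 (Sum.elim v v) : EuclideanSpace ℝ (ι ⊕ ι)) (Sum.inl i0)
        = (WithLp.toLp 2 (Sum.elim (fun i => η i * v i) (fun i => η i * v i)) :
            EuclideanSpace ℝ (ι ⊕ ι)) (Sum.inl i0) := by
      rw [h]
    change v i0 = η i0 * v i0 at h1
    rw [hi0] at h1
    exact hv0 (by linarith)

/-- The cyclic shift of `Fin (N + 1)`: `i ↦ i + 1` for `i < N`, and `N ↦ 0`. -/
def rotPerm (N : ℕ) : Equiv.Perm (Fin (N + 1)) where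
  toFun i := ⟨if i.val = N then 0 else i.val + 1, by split_ifs <;> omega⟩
  invFun i := ⟨if i.val = 0 then N else i.val - 1, by split_ifs <;> omega⟩
  left_inv i := by
    apply Fin.ext
    show (if (if i.val = N then 0 else i.val + 1) = 0 then N
      else (if i.val = N then 0 else i.val + 1) - 1) = i.val
    by_cases h : i.val = N
    · rw [if_pos h, if_pos rfl, h]
    · rw [if_neg h, if_neg (by omega)]
      omega
  right_inv i := by
    apply Fin.ext
    show (if (if i.val = 0 then N else i.val - 1) = N then 0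
      else (if i.val = 0 then N else i.val - 1) + 1) = i.val
    have hi := i.isLt
    by_cases h : i.val = 0
    · rw [if_pos h, if_pos rfl, h]
    · rw [if_neg h, if_neg (by omega)]
      omega

theorem rotPerm_val (N : ℕ) (i : Fin (N + 1)) :
    (rotPerm N i).val = if i.val = N then 0 else i.val + 1 := rfl

theorem rotPerm_symm_val (N : ℕ) (i : Fin (N + 1)) :
    ((rotPerm N).symm i).val = if i.val = 0 then N else i.val - 1 := rfl

/-- The parameters `t = 2k/(3k+2)` and `t = k/(3k+2)`: the cyclic sequence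
`3k+2, 3k, 3k-2, ..., k` of length `k + 2`. -/
theorem sol_family (k : ℕ) (hk : 1 ≤ k) (s : ℝ) (hs : s = 1 ∨ s = -1) (t : ℝ)
    (ht : t * (3 * (k : ℝ) + 2) = (3 * (k : ℝ) + s * k) / 2) (σ : ℝ) (hσ : 0 < σ) :
    ∃ (n : ℕ) (X : Set (EuclideanSpace ℝ (Fin n)))
      (G : Subgroup (EuclideanSpace ℝ (Fin n) ≃ᵢ EuclideanSpace ℝ (Fin n))),
      X.Finite ∧ Group.IsSolvable G ∧ (∀ g ∈ G, ∀ p ∈ X, g p ∈ X) ∧
      (∀ p ∈ X, ∀ q ∈ X, ∃ g ∈ G, g p = q) ∧
      ∃ a' ∈ X, ∃ b' ∈ X, ∃ c' ∈ X, ∃ d' ∈ X,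
        dist a' b' ^ 2 = 2 * σ ^ 2 * (1 - t) ∧ dist a' d' ^ 2 = 2 * σ ^ 2 * (1 - t) ∧
        dist c' b' ^ 2 = 2 * σ ^ 2 * (1 + t) ∧ dist c' d' ^ 2 = 2 * σ ^ 2 * (1 + t) ∧
        dist a' c' ^ 2 = 4 * σ ^ 2 ∧ dist b' d' ^ 2 = 4 * σ ^ 2 * (1 - t ^ 2) := by
  have hk0 : (1 : ℝ) ≤ k := by exact_mod_cast hk
  have ht1 : t ≠ 1 := by
    intro h
    rw [h] at ht
    rcases hs with h1 | h1 <;> rw [h1] at ht <;> linarith
  refine sol_crit (rotPerm (k + 1))
    (fun i => 3 * (k : ℝ) + 2 - 2 * (i.val : ℝ))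
    (fun _ => 1)
    (fun i => if i.val = 0 then s else if i.val = k + 1 then -1 else 1)
    (fun i => if i.val = 0 then -1 else 1) t ht1 (fun _ => Or.inl rfl) ?_ ?_ ?_ ?_ σ hσ
  · intro i
    show (if i.val = 0 then s else if i.val = k + 1 then (-1 : ℝ) else 1) = 1 ∨
      (if i.val = 0 then s else if i.val = k + 1 then (-1 : ℝ) else 1) = -1
    split_ifs
    · exact hs
    · exact Or.inr rfl
    · exact Or.inl rfl
  · intro i
    show (if i.val = 0 then (-1 : ℝ) else 1) = 1 ∨ (if i.val = 0 then (-1 : ℝ) else 1) = -1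
    split_ifs
    · exact Or.inr rfl
    · exact Or.inl rfl
  · intro i
    show 1 * (3 * (k : ℝ) + 2 - 2 * ((rotPerm (k + 1) i).val : ℝ))
        + (if i.val = 0 then s else if i.val = k + 1 then (-1 : ℝ) else 1)
          * (3 * (k : ℝ) + 2 - 2 * (((rotPerm (k + 1)).symm i).val : ℝ))
      = (1 + t) * (3 * (k : ℝ) + 2 - 2 * (i.val : ℝ))
        + (1 - t) * ((if i.val = 0 then (-1 : ℝ) else 1) * (3 * (k : ℝ) + 2 - 2 * (i.val : ℝ)))
    rw [rotPerm_val, rotPerm_symm_val]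
    have hi := i.isLt
    by_cases h0 : i.val = 0
    · rw [if_pos h0, if_pos h0, if_pos h0, if_neg (by omega)]
      rw [h0]
      push_cast
      linear_combination (-2 : ℝ) * ht
    · by_cases h1 : i.val = k + 1
      · rw [if_neg h0, if_neg h0, if_neg h0, if_pos h1, if_pos h1]
        rw [h1]
        have e1 : ((k + 1 - 1 : ℕ) : ℝ) = (k : ℝ) := by
          rw [Nat.add_sub_cancel]
        rw [e1]
        push_cast
        ring
      · rw [if_neg h0, if_neg h0, if_neg h0, if_neg h1, if_neg h1]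
        have e1 : ((i.val - 1 : ℕ) : ℝ) = (i.val : ℝ) - 1 := by
          rw [Nat.cast_sub (by omega)]
          simp
        rw [e1]
        push_cast
        ring
  · refine ⟨⟨0, by omega⟩, ?_, ?_⟩
    · show (if (0 : ℕ) = 0 then (-1 : ℝ) else 1) = -1
      rw [if_pos rfl]
    · show 3 * (k : ℝ) + 2 - 2 * ((0 : ℕ) : ℝ) ≠ 0
      have : (0 : ℝ) ≤ k := by linarith
      intro h
      simp at h
      linarith

end Vale.Agent.Lib.P058.H90
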